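import Vale.Agent.Lib.P249.helper53.Cube

namespace Vale.Agent.Lib.P249.H45

open Finset
open Vale.Agent.Lib.P249.H53

/-- A median of a real function on a finite nonempty type. -/
theorem exists_median {α : Type*} [Fintype α] [Nonempty α] (h : α → ℝ) :
    ∃ M : ℝ, Fintype.card α ≤ 2 * (univ.filter fun a => h a ≤ M).card ∧
      Fintype.card α ≤ 2 * (univ.filter fun a => M ≤ h a).card := by
  classical
  set S : Finset α :=
    univ.filter fun a => Fintype.card α ≤ 2 * (univ.filter fun b => h b ≤ h a).card with hS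
  have hSne : S.Nonempty := by
    obtain ⟨a0, -, ha0⟩ := Finset.exists_max_image univ h univ_nonempty
    refine ⟨a0, ?_⟩
    rw [hS, mem_filter]
    refine ⟨mem_univ _, ?_⟩
    have hall : (univ.filter fun b => h b ≤ h a0) = univ := by
      apply filter_true_of_mem
      intro b _
      exact ha0 b (mem_univ b)
    rw [hall, card_univ]
    omega
  obtain ⟨a1, ha1S, ha1⟩ := Finset.exists_min_image S h hSne
  refine ⟨h a1, (mem_filter.mp ha1S).2, ?_⟩
  set B : Finset α := univ.filter fun a => h a < h a1 with hB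
  have hsplit : (univ.filter fun a => h a1 ≤ h a).card + B.card = Fintype.card α := by
    rw [hB, ← card_univ]
    have h0 := Finset.card_filter_add_card_filter_not (s := (univ : Finset α))
      (fun a => h a1 ≤ h a)
    simp only [not_le] at h0
    exact h0
  rcases B.eq_empty_or_nonempty with hBe | hBne
  · rw [hBe, card_empty, add_zero] at hsplit
    omega
  · obtain ⟨a2, ha2B, ha2⟩ := Finset.exists_max_image B h hBne
    have ha2lt : h a2 < h a1 := (mem_filter.mp ha2B).2
    have ha2S : a2 ∉ S := fun hmem => absurd (ha1 a2 hmem) (not_le.mpr ha2lt)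
    have hcard : ¬ (Fintype.card α ≤ 2 * (univ.filter fun b => h b ≤ h a2).card) := by
      intro hc
      exact ha2S (mem_filter.mpr ⟨mem_univ _, hc⟩)
    have hsub : B ⊆ univ.filter fun b => h b ≤ h a2 := by
      intro b hb
      exact mem_filter.mpr ⟨mem_univ _, ha2 b hb⟩
    have hle := card_le_card hsub
    omega

/-- One-sided exponential moment bound above a half-space of the cube. -/
theorem exp_moment_one_sided (K : ℕ) (L : ℝ) (hL : 0 ≤ L) (Lam : ℝ) (hLam : 0 < Lam)
    (h : (Fin K → Bool) → ℝ)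
    (hlip : ∀ a b, |h a - h b| ≤ Lam * Real.sqrt (hammingDist a b))
    (M : ℝ) (hM : 2 ^ K ≤ 2 * (univ.filter fun a => h a ≤ M).card) :
    ∑ a, Real.exp (L * (max (h a - M) 0) ^ 2 / Lam ^ 2) ≤
      2 * 2 ^ K * Real.exp (L ^ 2 * K / 4) := by
  classical
  set T : ℝ := ∑ a, L * (h a - M) ^ 2 / Lam ^ 2 with hT
  set f : (Fin K → Bool) → ℝ := fun b => if h b ≤ M then 0 else T with hf
  set g : (Fin K → Bool) → ℝ := fun a => L * (max (h a - M) 0) ^ 2 / Lam ^ 2 with hg
  have hterm : ∀ a, g a ≤ T := by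
    intro a
    have h1 : (max (h a - M) 0) ^ 2 ≤ (h a - M) ^ 2 := by
      rcases le_total (h a - M) 0 with h0 | h0
      · rw [max_eq_right h0]
        nlinarith [sq_nonneg (h a - M)]
      · rw [max_eq_left h0]
    have h2 : g a ≤ L * (h a - M) ^ 2 / Lam ^ 2 := by
      simp only [hg]
      exact div_le_div_of_nonneg_right (mul_le_mul_of_nonneg_left h1 hL) (by positivity)
    refine le_trans h2 ?_
    rw [hT]
    exact Finset.single_le_sum (f := fun a => L * (h a - M) ^ 2 / Lam ^ 2)
      (fun i _ => by positivity) (mem_univ a)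
  have hfg : ∀ a b, g a ≤ f b + L * (hammingDist a b : ℝ) := by
    intro a b
    by_cases hb : h b ≤ M
    · simp only [hf, if_pos hb, zero_add, hg]
      have h1 : max (h a - M) 0 ≤ Lam * Real.sqrt (hammingDist a b) := by
        refine le_trans ?_ (hlip a b)
        rcases le_total (h a - M) 0 with h0 | h0
        · rw [max_eq_right h0]
          exact abs_nonneg _
        · rw [max_eq_left h0]
          exact le_trans (by linarith) (le_abs_self _)
      have h2 : (max (h a - M) 0) ^ 2 ≤ Lam ^ 2 * (hammingDist a b : ℝ) := by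
        have h0 : 0 ≤ max (h a - M) 0 := le_max_right _ _
        calc (max (h a - M) 0) ^ 2 ≤ (Lam * Real.sqrt (hammingDist a b)) ^ 2 :=
              pow_le_pow_left₀ h0 h1 2
          _ = Lam ^ 2 * (hammingDist a b : ℝ) := by
              rw [mul_pow, Real.sq_sqrt (Nat.cast_nonneg _)]
      rw [div_le_iff₀ (by positivity)]
      calc L * (max (h a - M) 0) ^ 2 ≤ L * (Lam ^ 2 * (hammingDist a b : ℝ)) :=
            mul_le_mul_of_nonneg_left h2 hL
        _ = L * (hammingDist a b : ℝ) * Lam ^ 2 := by ring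
    · simp only [hf, if_neg hb]
      have h2 := hterm a
      have h3 : 0 ≤ L * (hammingDist a b : ℝ) := by positivity
      linarith
  have hpl := pl_cube K L hL f g hfg
  have hsumf : (2 : ℝ) ^ K / 2 ≤ ∑ b, Real.exp (-f b) := by
    calc (2 : ℝ) ^ K / 2 ≤ ((univ.filter fun a => h a ≤ M).card : ℝ) := by
          have hc : ((2 ^ K : ℕ) : ℝ) ≤ ((2 * (univ.filter fun a => h a ≤ M).card : ℕ) : ℝ) := by
            exact_mod_cast hM
          push_cast at hc
          linarith
      _ = ∑ b ∈ univ.filter (fun a => h a ≤ M), Real.exp (-f b) := by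
          rw [Finset.card_eq_sum_ones, Nat.cast_sum]
          apply Finset.sum_congr rfl
          intro b hb
          simp only [hf, if_pos (mem_filter.mp hb).2, neg_zero, Real.exp_zero, Nat.cast_one]
      _ ≤ ∑ b, Real.exp (-f b) :=
          Finset.sum_le_sum_of_subset_of_nonneg (filter_subset _ _)
            (fun _ _ _ => (Real.exp_pos _).le)
  have hpos : 0 ≤ ∑ a, Real.exp (g a) := Finset.sum_nonneg fun _ _ => (Real.exp_pos _).le
  have h4 : (∑ a, Real.exp (g a)) * ((2 : ℝ) ^ K / 2) ≤ 4 ^ K * Real.exp (L ^ 2 * K / 4) :=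
    le_trans (mul_le_mul_of_nonneg_left hsumf hpos) hpl
  have h5 : (4 : ℝ) ^ K = 2 ^ K * 2 ^ K := by
    rw [← mul_pow]
    norm_num
  rw [h5] at h4
  by_contra hcon
  push Not at hcon
  have h6 : 2 ^ K * 2 ^ K * Real.exp (L ^ 2 * K / 4) <
      (∑ a, Real.exp (g a)) * ((2 : ℝ) ^ K / 2) := by
    calc 2 ^ K * 2 ^ K * Real.exp (L ^ 2 * K / 4)
        = (2 * 2 ^ K * Real.exp (L ^ 2 * K / 4)) * ((2 : ℝ) ^ K / 2) := by ring
      _ < (∑ a, Real.exp (g a)) * ((2 : ℝ) ^ K / 2) :=
          mul_lt_mul_of_pos_right hcon (by positivity)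
  linarith

/-- The elementary bound of a power by an exponential of the square. -/
theorem pow_le_exp (x Lam L s : ℝ) (hx : 0 ≤ x) (hLam : 0 < Lam) (hL : 0 < L) (hs : 0 < s) :
    x ^ (2 * s) ≤
      Lam ^ (2 * s) * (s / L) ^ s * Real.exp (-s) * Real.exp (L * x ^ 2 / Lam ^ 2) := by
  set u : ℝ := L * x ^ 2 / (Lam ^ 2 * s) with hu
  have hu0 : 0 ≤ u := by positivity
  have h1 : u ≤ Real.exp (u - 1) := by
    have h0 := Real.add_one_le_exp (u - 1)
    linarith
  have h2 : u ^ s ≤ Real.exp (u - 1) ^ s := Real.rpow_le_rpow hu0 h1 hs.le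
  have h3 : Real.exp (u - 1) ^ s = Real.exp (-s) * Real.exp (L * x ^ 2 / Lam ^ 2) := by
    rw [← Real.exp_mul, ← Real.exp_add]
    congr 1
    rw [hu]
    field_simp
    ring
  have h4 : x ^ (2 * s) = Lam ^ (2 * s) * (s / L) ^ s * u ^ s := by
    rw [Real.rpow_mul hx, Real.rpow_mul hLam.le, Real.rpow_two, Real.rpow_two,
      ← Real.mul_rpow (by positivity) (by positivity),
      ← Real.mul_rpow (by positivity) hu0]
    congr 1
    rw [hu]
    field_simp
  rw [h4]
  calc Lam ^ (2 * s) * (s / L) ^ s * u ^ s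
      ≤ Lam ^ (2 * s) * (s / L) ^ s * (Real.exp (-s) * Real.exp (L * x ^ 2 / Lam ^ 2)) := by
        rw [← h3]
        exact mul_le_mul_of_nonneg_left h2 (by positivity)
    _ = Lam ^ (2 * s) * (s / L) ^ s * Real.exp (-s) * Real.exp (L * x ^ 2 / Lam ^ 2) := by
        ring

theorem add_rpow_le (x y : ℝ) (hx : 0 ≤ x) (hy : 0 ≤ y) (p : ℝ) (hp : 1 ≤ p) :
    (x + y) ^ p ≤ 2 ^ (p - 1) * (x ^ p + y ^ p) := by
  have h0 := NNReal.rpow_add_le_mul_rpow_add_rpow ⟨x, hx⟩ ⟨y, hy⟩ hp
  exact_mod_cast h0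

/-- Concentration of square-root-Hamming-Lipschitz functions on the cube (pool job P249-LB-J2). -/
theorem conc_cube (K : ℕ) (hK : 1 ≤ K) (q : ℝ) (hq : 2 ≤ q) (Lam : ℝ) (hLam : 0 ≤ Lam)
    (h : (Fin K → Bool) → ℝ)
    (hlip : ∀ a b, |h a - h b| ≤ Lam * Real.sqrt (hammingDist a b)) :
    ∑ a, ∑ b, |h a - h b| ^ q ≤ 4 ^ K * 2 ^ (q + 2) * Lam ^ q * (q * K) ^ (q / 4) := by
  have hq0 : 0 < q := by linarith
  have hKpos : (0 : ℝ) < K := by exact_mod_cast hK
  rcases hLam.eq_or_lt with hL0 | hLpos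
  · have hz : ∀ a b, |h a - h b| = 0 := by
      intro a b
      have h0 := hlip a b
      rw [← hL0, zero_mul] at h0
      exact le_antisymm h0 (abs_nonneg _)
    have hsum : ∑ a, ∑ b, |h a - h b| ^ q = 0 := by
      apply Finset.sum_eq_zero
      intro a _
      apply Finset.sum_eq_zero
      intro b _
      rw [hz, Real.zero_rpow hq0.ne']
    rw [hsum]
    positivity
  · have hcard : Fintype.card (Fin K → Bool) = 2 ^ K := by simp
    obtain ⟨M, hM1, hM2⟩ := exists_median h
    rw [hcard] at hM1 hM2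
    set L : ℝ := Real.sqrt (q / K) with hLdef
    have hLpos' : 0 < L := Real.sqrt_pos.mpr (div_pos hq0 hKpos)
    have hLsq : L ^ 2 = q / K := Real.sq_sqrt (div_pos hq0 hKpos).le
    have hexpo : L ^ 2 * K / 4 = q / 4 := by
      rw [hLsq]
      field_simp
    have hup := exp_moment_one_sided K L hLpos'.le Lam hLpos h hlip M hM1
    have hlip' : ∀ a b, |(-h a) - (-h b)| ≤ Lam * Real.sqrt (hammingDist a b) := by
      intro a b
      rw [show -h a - -h b = -(h a - h b) by ring, abs_neg]
      exact hlip a b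
    have hM2' : 2 ^ K ≤ 2 * (univ.filter fun a => -h a ≤ -M).card := by
      have hfe : (univ.filter fun a => -h a ≤ -M) = univ.filter fun a => M ≤ h a := by
        apply Finset.filter_congr
        intro a _
        exact neg_le_neg_iff
      rw [hfe]
      exact hM2
    have hlow := exp_moment_one_sided K L hLpos'.le Lam hLpos (fun a => -h a) hlip' (-M) hM2'
    have hE : ∑ a, Real.exp (L * (h a - M) ^ 2 / Lam ^ 2) ≤ 4 * 2 ^ K * Real.exp (q / 4) := by
      have hpt : ∀ a, Real.exp (L * (h a - M) ^ 2 / Lam ^ 2) ≤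
          Real.exp (L * (max (h a - M) 0) ^ 2 / Lam ^ 2) +
            Real.exp (L * (max (-h a - -M) 0) ^ 2 / Lam ^ 2) := by
        intro a
        rcases le_total (h a - M) 0 with h0 | h0
        · have h1 : max (-h a - -M) 0 = -(h a - M) := by
            rw [max_eq_left (by linarith)]
            ring
          rw [h1, neg_sq]
          have h2 := Real.exp_pos (L * (max (h a - M) 0) ^ 2 / Lam ^ 2)
          linarith
        · rw [max_eq_left h0]
          have h2 := Real.exp_pos (L * (max (-h a - -M) 0) ^ 2 / Lam ^ 2)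
          linarith
      calc ∑ a, Real.exp (L * (h a - M) ^ 2 / Lam ^ 2)
          ≤ ∑ a, (Real.exp (L * (max (h a - M) 0) ^ 2 / Lam ^ 2) +
              Real.exp (L * (max (-h a - -M) 0) ^ 2 / Lam ^ 2)) :=
            Finset.sum_le_sum fun a _ => hpt a
        _ = ∑ a, Real.exp (L * (max (h a - M) 0) ^ 2 / Lam ^ 2) +
              ∑ a, Real.exp (L * (max (-h a - -M) 0) ^ 2 / Lam ^ 2) := Finset.sum_add_distrib
        _ ≤ 2 * 2 ^ K * Real.exp (L ^ 2 * K / 4) + 2 * 2 ^ K * Real.exp (L ^ 2 * K / 4) :=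
            add_le_add hup hlow
        _ = 4 * 2 ^ K * Real.exp (q / 4) := by
            rw [hexpo]
            ring
    set s : ℝ := q / 2 with hs
    have hs0 : 0 < s := by positivity
    have hq2s : q = 2 * s := by
      rw [hs]
      ring
    have hmom : ∑ a, |h a - M| ^ q ≤ 4 * 2 ^ K * Lam ^ q * (q * K) ^ (q / 4) := by
      have hpt : ∀ a, |h a - M| ^ q ≤
          Lam ^ q * (s / L) ^ s * Real.exp (-s) * Real.exp (L * (h a - M) ^ 2 / Lam ^ 2) := by
        intro a
        have h0 := pow_le_exp |h a - M| Lam L s (abs_nonneg _) hLpos hLpos' hs0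
        rw [sq_abs, ← hq2s] at h0
        exact h0
      have hconst : (s / L) ^ s * Real.exp (-s) * Real.exp (q / 4) ≤ (q * K) ^ (q / 4) := by
        have h1 : s / L ≤ (q * K) ^ ((1 : ℝ) / 2) := by
          rw [← Real.sqrt_eq_rpow]
          apply Real.le_sqrt_of_sq_le
          rw [div_pow, hLsq, hs, div_le_iff₀ (div_pos hq0 hKpos)]
          have h0 : q * K * (q / K) = q * q := by field_simp
          rw [h0]
          nlinarith
        have h2 : (s / L) ^ s ≤ (q * K) ^ (q / 4) := by
          calc (s / L) ^ s ≤ ((q * K) ^ ((1 : ℝ) / 2)) ^ s :=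
                Real.rpow_le_rpow (by positivity) h1 hs0.le
            _ = (q * K) ^ (q / 4) := by
                rw [← Real.rpow_mul (by positivity)]
                congr 1
                rw [hs]
                ring
        have h3 : Real.exp (-s) * Real.exp (q / 4) ≤ 1 := by
          rw [← Real.exp_add, ← Real.exp_zero]
          apply Real.exp_le_exp.mpr
          rw [hs]
          linarith
        calc (s / L) ^ s * Real.exp (-s) * Real.exp (q / 4)
            = (s / L) ^ s * (Real.exp (-s) * Real.exp (q / 4)) := by ring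
          _ ≤ (s / L) ^ s * 1 := mul_le_mul_of_nonneg_left h3 (by positivity)
          _ ≤ (q * K) ^ (q / 4) := by
              rw [mul_one]
              exact h2
      calc ∑ a, |h a - M| ^ q
          ≤ ∑ a, Lam ^ q * (s / L) ^ s * Real.exp (-s) *
              Real.exp (L * (h a - M) ^ 2 / Lam ^ 2) := Finset.sum_le_sum fun a _ => hpt a
        _ = Lam ^ q * (s / L) ^ s * Real.exp (-s) *
              ∑ a, Real.exp (L * (h a - M) ^ 2 / Lam ^ 2) := by rw [Finset.mul_sum]
        _ ≤ Lam ^ q * (s / L) ^ s * Real.exp (-s) * (4 * 2 ^ K * Real.exp (q / 4)) :=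
            mul_le_mul_of_nonneg_left hE (by positivity)
        _ = 4 * 2 ^ K * Lam ^ q * ((s / L) ^ s * Real.exp (-s) * Real.exp (q / 4)) := by ring
        _ ≤ 4 * 2 ^ K * Lam ^ q * (q * K) ^ (q / 4) :=
            mul_le_mul_of_nonneg_left hconst (by positivity)
    have hpair : ∀ a b, |h a - h b| ^ q ≤ 2 ^ (q - 1) * (|h a - M| ^ q + |h b - M| ^ q) := by
      intro a b
      have h1 : |h a - h b| ≤ |h a - M| + |h b - M| := by
        have h0 := abs_sub_le (h a) M (h b)
        rw [abs_sub_comm M (h b)] at h0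
        exact h0
      calc |h a - h b| ^ q ≤ (|h a - M| + |h b - M|) ^ q :=
            Real.rpow_le_rpow (abs_nonneg _) h1 hq0.le
        _ ≤ 2 ^ (q - 1) * (|h a - M| ^ q + |h b - M| ^ q) :=
            add_rpow_le _ _ (abs_nonneg _) (abs_nonneg _) q (by linarith)
    set Sm : ℝ := ∑ a, |h a - M| ^ q with hSm
    have hinner : ∀ a, ∑ b, (2 ^ (q - 1) * (|h a - M| ^ q + |h b - M| ^ q)) =
        2 ^ (q - 1) * ((2 : ℝ) ^ K * |h a - M| ^ q + Sm) := by
      intro a
      rw [← Finset.mul_sum, Finset.sum_add_distrib, Finset.sum_const, Finset.card_univ, hcard,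
        nsmul_eq_mul]
      push_cast
      rfl
    have hdouble : ∑ a, ∑ b, (2 ^ (q - 1) * (|h a - M| ^ q + |h b - M| ^ q)) =
        2 ^ (q - 1) * (2 * 2 ^ K * Sm) := by
      rw [Finset.sum_congr rfl fun a _ => hinner a, ← Finset.mul_sum, Finset.sum_add_distrib,
        ← Finset.mul_sum, Finset.sum_const, Finset.card_univ, hcard, nsmul_eq_mul]
      push_cast
      ring
    have h4 : (4 : ℝ) ^ K = 2 ^ K * 2 ^ K := by
      rw [← mul_pow]
      norm_num
    have h8 : (2 : ℝ) ^ (q + 2) = 2 ^ (q - 1) * 8 := by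
      rw [show q + 2 = (q - 1) + ((3 : ℕ) : ℝ) by push_cast; ring,
        Real.rpow_add (by norm_num : (0 : ℝ) < 2), Real.rpow_natCast]
      norm_num
    calc ∑ a, ∑ b, |h a - h b| ^ q
        ≤ ∑ a, ∑ b, (2 ^ (q - 1) * (|h a - M| ^ q + |h b - M| ^ q)) :=
          Finset.sum_le_sum fun a _ => Finset.sum_le_sum fun b _ => hpair a b
      _ = 2 ^ (q - 1) * (2 * 2 ^ K * Sm) := hdouble
      _ ≤ 2 ^ (q - 1) * (2 * 2 ^ K * (4 * 2 ^ K * Lam ^ q * (q * K) ^ (q / 4))) :=
          mul_le_mul_of_nonneg_left (mul_le_mul_of_nonneg_left hmom (by positivity))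
            (by positivity)
      _ = 4 ^ K * 2 ^ (q + 2) * Lam ^ q * (q * K) ^ (q / 4) := by
          rw [h4, h8]
          ring

end Vale.Agent.Lib.P249.H45
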